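import Vale.Agent.P346.Final

/-!
# P346, Q1, full answer: `s_K(n) = n^{Θ(√n)}` for every field `K`

`Vale.Agent.P346.Circuit` models syntactically homogeneous `ΣΠΣΠΣ` circuits, `Circuit.size` is the
number of vertices, `IMM K n n` is the iterated matrix multiplication polynomial and `minSize K n`
is `s_K(n)`.
-/

namespace Vale.Agent.Results.P346.IMMGrowth

open Vale.Agent.P346

universe u

/-- There are absolute constants `c, A > 0` and `N₀` such that for every field `K` and every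
`n ≥ N₀` the minimum `s_K(n)` is attained by a syntactically homogeneous `ΣΠΣΠΣ` circuit computing
`IMM_{n,n}` and `n^{c√n} ≤ s_K(n) ≤ n^{A√n}`. -/
theorem result : ∃ c A : ℝ, 0 < c ∧ 0 < A ∧ ∃ N₀ : ℕ, ∀ (K : Type u) [Field K] (n : ℕ), N₀ ≤ n →
    (∃ C : Circuit K (Fin n × Fin n × Fin n),
      C.IsSyntHomogeneous ∧ C.eval = IMM K n n ∧ C.size = minSize K n) ∧
    (n : ℝ) ^ (c * √(n : ℝ)) ≤ (minSize K n : ℝ) ∧
    (minSize K n : ℝ) ≤ (n : ℝ) ^ (A * √(n : ℝ)) := by
  obtain ⟨c, A, hc, hA, N₀, h⟩ := main_theorem.{u}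
  refine ⟨c, A, hc, hA, max N₀ 2, fun K _ n hn => ?_⟩
  obtain ⟨h1, h2⟩ := h n (le_trans (le_max_left _ _) hn) K
  exact ⟨minSize_attained K n (le_trans (le_max_right _ _) hn), h1, h2⟩

end Vale.Agent.Results.P346.IMMGrowth
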